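import Crest.Agent.N255.Ma.Wd
import Crest.Agent.N255.Wf.W12

/-!
# Row 255 (helper7): windows and the holonomy class of a wall
-/

set_option autoImplicit false
open Set

noncomputable section

namespace Crest.Agent.N255.Ma.Wd
open Tp Nv Pt Lv En Wn Le Cs

variable {F : Subgroup F3} {S : Type} [MulAction F3 S] {X : Type} [TopologicalSpace X]
  [MulAction F X] [ContinuousConstSMul F X] {k : Type} [Field k] {g : Geo F k S X} {u R₀ : ℝ} {n : ℕ}
  {J : Type} [Fintype J] {τ : Ty J} {e : Ed (Fin 3)} {o : Bool} (ω : Wd g u R₀ n τ e o)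

/-- the small simplices in the zones of the window `i` -/
def Zk (i : ℕ) : Sb X := (Sm (ω.Z i)).inf (Sm g.E.cv)

/-- the far small simplices of the thick wall -/
def Fw (R : ℝ) : Sb X := g.E.toLev.Sb (fw (g.E.s e) g.E.r ω.a ω.b R)

/-- the class of the holonomy `w` -/
def xw : Co k 1 X := Or.Xe g.E.toLev g.M k (rev (me e o)) R₀ - ω.η

end Crest.Agent.N255.Ma.Wd

end
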