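import Crest.Agent.N255.Lp.Eps
import Crest.Agent.N255.Cs.Cap0

/-!
# Row 255 (helper7): the first order expansion of an affine family
-/

set_option autoImplicit false
open Set Module

noncomputable section

namespace Crest.Agent.N255.Lp

open Cs Cs.Tw Tp Ku

variable {p : ℕ} [Fact p.Prime] {K O : Type} [Field K] [CommRing O] [Algebra K O]
  {G : Gr (Gm p) K O} {m : Ideal O} {X : Type} [TopologicalSpace X] {g g1 : Cn G X} {hm : G.Id m}
  {ι : Type} [Fintype ι] {H : Co K 2 X →ₗ[K] Co K 1 X} {ε : ι → Tw G}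

theorem zz_lin {a b : (Tw G)ˣ} (ha : a ∈ U hm) (hb : b ∈ U hm) (x y : ℤ) :
    In (m * m) ((a ^ x * b ^ y).val - 1 - ((x : K) • (a.val - 1) + (y : K) • (b.val - 1))) := by
  have h1 := zpow_lin hm hm (b := a) (l := 1) ha (one_mem _) x
  have h2 := zpow_lin hm hm (b := b) (l := 1) hb (one_mem _) y
  rw [sup_idem, one_zpow, Units.val_one] at h1 h2
  have h3 : In (m * m) _ := o_mul_mem hm hm (zpow_mem ha x) (zpow_mem hb y)
  refine ((h1.add h2).add h3).eq ?_
  rw [Int.cast_smul_eq_zsmul, Int.cast_smul_eq_zsmul, Units.val_mul]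
  noncomm_ring

theorem src_sub' {n : ℕ} (q q' : ι → Co K n X) : src (fun j => q j - q' j) ε = src q ε - src q' ε :=
  funext fun σ => by simp [src, sub_smul, Finset.sum_sub_distrib]

variable [Module.Finite K O]

theorem tens_src (q : ι → Co K 2 X) : tens H (src q ε) = src (fun j => H (q j)) ε :=
  funext fun σ => dual_ext fun l => by
    have h1 := congrFun (lc_tens (H := H) l (src q ε)) σ
    rw [lc_src, map_sum] at h1
    refine h1.trans (Eq.trans ?_ (congrFun (lc_src l) σ).symm)
    simp only [map_smul]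

/-- **the linear part of an affine family** -/
theorem Fam.lin {q : ι → Co K 1 X} {q' : ι → Co K 2 X}
    (F : Fam hm H g1 (src q' ε) g)
    (h1 : ∀ σ, In (m * m) ((g1 σ).val - 1 - src q ε σ)) (σ : Sx 1 X) :
    In (m * m) ((g σ).val - 1 - src (fun j => q j - H (cob K (q j) - q' j)) ε σ) := by
  have c1 : ∀ x, In (m * m) (cur g1 x - cob K (Cs.dif g1 1) x) := fun x => by
    have := (sD X).F_lin hm F.u1 x
    rwa [sD_d1 K] at this
  have c2 := ci_univ.1 (ci_cob (φ := Cs.dif g1 1 - src q ε) (ci_univ.2 h1))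
  have c3 : ∀ x, In (m * m) ((cur g1 - src q' ε) x - src (fun j => cob K (q j) - q' j) ε x) :=
    fun x => ((c1 x).add (c2 x)).eq (by
      rw [src_sub', ← cob_src, map_sub]; simp only [Pi.sub_apply]; abel)
  have c4 := tens_in H c3 σ
  rw [tens_sub, tens_src] at c4
  have c5 := F.dif_lin hm (fun e => u_sub hm (F.u e) (F.u1 e)) σ
  refine (((h1 σ).add c5).sub c4).eq ?_
  rw [src_sub', Pi.sub_apply, Cs.dif]; abel

end Crest.Agent.N255.Lp

end
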