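import Crest.Agent.N255.Wg.Df
import Crest.Agent.N255.Wn.WdM
import Crest.Agent.N255.Sl.PC
import Crest.Agent.N255.Wg.Lin
import Crest.Agent.N255.Ma.Sig
import Crest.Agent.N255.Wf.Out

/-!
# Row 255 (helper7): the family of a wall is a normalised wall family
-/

set_option autoImplicit false
set_option linter.unusedSectionVars false
open Set

noncomputable section

namespace Crest.Agent.N255.Ma
open Tp Nv Pt Lv En Wn Le Cs Cs.Tw Ku Tg _root_.N255.Dr _root_.N255.Dr.O _root_.N255.Wt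

variable {F : Subgroup F3} {S : Type} [MulAction F3 S] {X : Type} [TopologicalSpace X]
  [MulAction F X] [ContinuousConstSMul F X] {J : Type} [Fintype J] {τ : Ty J}

namespace Wd

section scalar
variable {k : Type} [Field k] {g : Geo F k S X} {u R₀ R : ℝ} {n : ℕ} {e : Ed (Fin 3)} {o : Bool}
  (ω : Wd g u R₀ n τ e o) {σ : Ch k 3 X}

theorem Zb_le {m i : ℕ} (h : m ≤ i) (h' : m ≤ n) :
    (ω.Zb i).Le (g.E.toLev.Sb (Wn.win (g.E.s e) (ω.l m) (ω.r m))) :=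
  fun _ _ ⟨⟨_, hU, h1⟩, h2⟩ => ⟨h1.trans (zs_sub ω.lr h' (zs_anti h hU)), h2⟩

theorem win_B (c : Bool) (m : ℕ) : Wn.win (g.E.s e) (ω.l m) (ω.r m) ⊆ ω.B c m := by
  cases c; exacts [win_hi, win_lo]

theorem ct_Z (j : J) : ω.ct j ∈ (On (ω.B (τ.kd j == o) (τ.sc j + 1))).Z k k 1 :=
  (Wv.ct_ZP (ω.mem j) subset_rfl).2

theorem ct_Zb {i : ℕ} {j : J} (h : τ.sc j < i) : ω.ct j ∈ (ω.Zb i).Z k k 1 :=
  Sb.Z_mono ((ω.Zb_le h (ω.sc_lt j)).trans (Sb.inf_le_left.trans (On_le (ω.win_B _ _)))) (ω.ct_Z j)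

theorem ct_Pc (j : J) : ω.ct j ∈ ω.Pc.Z k k 1 := Sb.Z_mono (ω.Pc_le n) (ω.ct_Zb (ω.sc_lt j))

theorem xw_Z : ω.xw ∈ (g.E.toLev.Sb (Wn.win (g.E.s e) ω.a ω.b)).Z k k 1 := by
  refine Sb.Z_mono (sb_mono fun x hx => ?_) ω.bz.cl
  cases o
  · show g.E.s (rev (rev e)) x < ω.b
    rw [rev_rev]; exact hx.2
  · show g.E.s (rev e) x < 1 - ω.a
    rw [g.E.s_rev]; exact sub_lt_sub_left hx.1 1

theorem xw_Zb (i : ℕ) : ω.xw ∈ (ω.Zb i).Z k k 1 :=
  Sb.Z_mono ((ω.Zb_le (Nat.zero_le i) (Nat.zero_le n)).trans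
    (sb_mono (win_mono ω.al.le ω.rb.le))) ω.xw_Z

theorem Hp_zero (hn : 0 < n) {f : Co k 2 X} (h : f ∈ (ω.Zb 0).van k k 2) : ω.Hp f = 0 := by
  rw [Hp_apply, ω.nf.zero f h, zero_add]
  exact Finset.sum_eq_zero fun j _ => by rw [(ω.nf.fl2 0 hn f h).2 j (Nat.zero_le _), zero_smul]

variable {ω}

/-- the torus of the wall, supported beyond the radius `R` -/
def Sig.Ts (h : ω.Sig R σ) : To k X :=
  h.T.shr (h.T.P.inf (On (hi g.E.r R))) Sb.inf_le_left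
    (Sml.mem_inf h.lb (Sb.ch_mono (Sb.inf_le_left.trans (On_le fun _ hx => hx.1)) h.mem.2))

end scalar

end Wd

variable {p : ℕ} [Fact p.Prime]

theorem kdU_none {x : Uv p J} : τ.kdU p x = none ↔ x.1 = .inr true := by
  rcases x with ⟨j | _ | _, γ⟩ <;> simp [Ty.kdU]

theorem pd_uv_ne {x : Uv p J} {y : J ⊕ Bool} (h : x.1 ≠ y) : pd x (o (GU p J) (uv p y)) = 0 :=
  pd_uz_zero _ fun _ _ e => h (congrArg Prod.fst e)

theorem pd_uv_self (x : Uv p J) : pd x (o (GU p J) (uv p x.1)) = 1 :=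
  pd_uz_one (GU_z p J) (v := fun γ => (x.1, γ)) (fun _ _ _ _ e => congrArg Prod.snd e)
    (Finset.mem_univ x.2)

theorem pd_src {n : ℕ} (q : J ⊕ Bool → Co (ZMod p) n X) (x : Uv p J) (σ : Sx n X) :
    pd x (o (GU p J) (Lp.src q (xv p) σ)) = algebraMap (ZMod p) _ (q x.1 σ) := by
  have e : ∀ y, pd x (o (GU p J) (xv p y)) = pd x (o (GU p J) (uv p y)) := fun y => by
    rw [← uv_sub, map_sub, map_sub, o_one, Derivation.map_one_eq_zero, sub_zero]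
  rw [Lp.src, map_sum, map_sum, Finset.sum_eq_single x.1]
  · rw [map_smul, Derivation.map_smul, e, pd_uv_self, Algebra.algebraMap_eq_smul_one]
  · intro y _ hy
    rw [map_smul, Derivation.map_smul, e, pd_uv_ne hy.symm, smul_zero]
  · simp

namespace Wd

variable {g : Geo F (ZMod p) S X} {u R₀ R : ℝ} {n : ℕ} {e : Ed (Fin 3)} {o : Bool}
  (ω : Wd g u R₀ n τ e o) {σ : Ch (ZMod p) 3 X}

/-- beyond the radius `R` the family is the base and there are no sources -/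
structure Rad (R : ℝ) : Prop where
  far : ω.Far R
  cx : ∀ x, ω.cx x ∈ (On (hi g.E.r R)).van (ZMod p) (ZMod p) 1

theorem exists_rad : ∃ R₁, ∀ R, R₁ ≤ R → ω.Rad R :=
  let ⟨a, ha⟩ := ω.exists_far
  let ⟨b, hb⟩ := ω.exists_cx_far
  ⟨max a b, fun R h => ⟨ha R ((le_max_left _ _).trans h), hb R ((le_max_right _ _).trans h)⟩⟩

/-- the linear classes of the base -/
def q1 : J ⊕ Bool → Co (ZMod p) 1 X :=
  Sum.elim ω.ct fun c => if c then Or.Xe g.E.toLev g.M _ (me e o) R₀ else ω.xw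

/-- the classes of the sources -/
def q2 : J ⊕ Bool → Co (ZMod p) 2 X := Sum.elim (fun j => cob (ZMod p) (ω.ct j)) fun _ => 0

theorem Sr_eq : ω.Sr = Lp.src ω.q2 (xv p) :=
  funext fun τ => by simp [Sr, Lp.src, q2, Fintype.sum_sum_type]

theorem g1_lin (τ : Sx 1 X) : In (mx * mx) ((ω.g1 τ).val - 1 - Lp.src ω.q1 (xv p) τ) := by
  refine (Lp.zz_lin (K := ZMod p) (uv_U p (J := J) (.inr true)) (uv_U p (.inr false))
    (g.E.toLev.mz g.M R₀ (me e o) τ) (g.E.toLev.mz g.M R₀ (rev (me e o)) τ)).eq ?_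
  rw [g1, Lp.val_pl, uv_sub, uv_sub, Lev.mz_cast, Lev.mz_cast]
  simp only [Lp.src, Fintype.sum_sum_type, Fintype.sum_bool, q1, cx, xw, Sum.elim_inl, Sum.elim_inr,
    if_true, Bool.false_eq_true, if_false, Pi.zero_apply, zero_smul, Pi.neg_apply, Pi.sub_apply,
    neg_smul, sub_smul, g0]
  show _ = _ - (Or.Xe g.E.toLev g.M _ (me e o) R₀ τ • _ + Or.Xe g.E.toLev g.M _ (rev (me e o)) R₀ τ • _)
  abel

/-- **the linear part of the family** -/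
theorem gU_lin (τ : Sx 1 X) : In (mx * mx) ((ω.gU τ).val - 1 -
    Lp.src (fun x => ω.q1 x - ω.Hp (cob (ZMod p) (ω.q1 x) - ω.q2 x)) (xv p) τ) :=
  Lp.Fam.lin (ω.Sr_eq ▸ ω.fam) ω.g1_lin τ

theorem pd_gU (x : Uv p J) (τ : Sx 1 X) : pd x (Tw.o (GU p J) (ω.gU τ)) -
    algebraMap (ZMod p) _ ((ω.q1 x.1 - ω.Hp (cob (ZMod p) (ω.q1 x.1) - ω.q2 x.1)) τ) ∈ mx := by
  have := der_mem_pow (pd x) 1 (sq (mx : Ideal (OU p J)) ▸ ω.gU_lin τ)
  rwa [pow_one, map_sub, map_sub, pd_src, map_sub, map_sub, o_one, Derivation.map_one_eq_zero,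
    sub_zero] at this

/-- the linear classes near the wall chain -/
def ka (x : Uv p J) : Co (ZMod p) 1 X := x.1.elim ω.h fun c => if c then 0 else ω.hw

theorem Sr_van {P : Sb X} (h : ∀ j, ω.ct j ∈ P.Z (ZMod p) (ZMod p) 1) :
    ω.Sr ∈ P.van (ZMod p) (Tw (GU p J)) 2 :=
  fun τ hτ => Finset.sum_eq_zero fun j _ => smul_eq_zero_of_left (h j τ hτ) _

variable {ω}

theorem Rad.mono (h : ω.Rad R) {R' : ℝ} (hR : R ≤ R') : ω.Rad R' :=
  ⟨h.far.mono hR, fun x => van_mono (hi_mono hR) (h.cx x)⟩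

theorem Rad.cur (h : ω.Rad R) {I : Ideal (OU p J)} (hI : (GU p J).Id I)
    (c : In I ((uv p (.inr true)).val * (uv p (.inr false)).val -
      (uv p (J := J) (.inr false)).val * (uv p (.inr true)).val)) {a b : ℝ} (ha : u ≤ a)
    (hb : b ≤ 1 - u) : CI (g.E.toLev.Sb (fw (g.E.s e) g.E.r a b R)) I (cur ω.gU - ω.Sr) := by
  have q : (g.E.toLev.Sb (fw (g.E.s e) g.E.r a b R)).Le (On (hi g.E.r R)) :=
    Sb.inf_le_left.trans (On_le fun _ hx => hx.1)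
  intro τ hτ
  rw [Pi.sub_apply, ω.Sr_van (fun j => Sb.van_le_Z (Sb.van_mono q (h.cx (.inl j)))) τ hτ, sub_zero]
  exact Lev.cur_gs0 hI c (ω.fw_lb h.far.1 ha hb) (fun x hx => h.far.2 x (q 1 hx)) τ hτ

/-- **the family of a wall is normalised** -/
theorem Sig.wf [T2Space X] [ChartedSpace (EE 4) X] (h : ω.Sig R σ) (hR : ω.Rad R) {c n' : ℕ}
    (hc : ∀ j, τ.dp j ≤ c) (h1 : 3 ≤ c) (n1 : 3 * (n' + 1) ≤ n) (n2 : n ≤ 3 * (n' + 2)) :
    Wf.WF (GU_z p J) h.Ts σ ω.gU (uv p (.inr true)) (uv p (.inr false)) (fun x => τ.kdU p x = none)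
      ω.ka (cur ω.gU - ω.Sr) (fun i => ω.Zb (3 * i)) ω.Pc n' (ω.Nr R)
      (fun x => N0 c + (τ.sg p hc).F x) (fun i => N0 c + 6 * i) (N0 c) where
  s_ne := h.T_ne hR.far.1
  hσ := h.pc
  hb := rfl
  le i _ := ω.Pc_le _
  hg := ω.fam.u
  bc τ hτ := hR.far.2 τ hτ.2
  ha := uz_mem _ _ fun _ _ => Wf.Ny_le.1 le_rfl _ rfl
  hb' := uv_U p _
  pa x hx := pd_uv_ne (mt kdU_none.2 hx)
  py γ := ⟨(.inr true, γ), rfl, rfl, by rw [pd_uv_self (.inr true, γ), sub_self]; exact zero_mem _⟩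
  cl := by
    rintro ⟨j | _ | _, δ⟩ hx
    exacts [ω.h_Pc j, ω.hw_Pc, absurd rfl hx]
  lin x hx τ hτ := by
    convert ω.pd_gU x τ using 3
    rcases x with ⟨j | _ | _, δ⟩
    · simpa [ka, q1, q2] using (sub_eq_zero.1 (ω.ct_sub_h j τ hτ)).symm
    · have : ω.hw τ = ω.xw τ := sub_eq_zero.1 (ω.bz.sm τ hτ.2)
      simpa [ka, q1, q2, ω.Hp_zero (by omega) (ω.xw_Zb 0)] using this
    · exact absurd rfl hx
  full x hx δ := ⟨(x.1, δ), hx, rfl, rfl⟩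
  src i _ := by
    rw [sub_sub_cancel]
    refine Lp.src_ci fun j => (lt_or_ge (τ.sc j) (3 * i)).elim (fun q => .inr (ω.ct_Zb q)) fun q => .inl ?_
    refine sum_mem fun δ _ => (flt_Ge _).anti ?_ (z_mem_Ge _ _)
    have : 2 + 2 * τ.sc j ≤ _ := Sg.le_F (σ := τ.sg p hc) (by omega) (.inl j, δ)
    omega
  scl i _ := by
    rw [sub_sub_cancel, Sb.mem_Z, Sr, Lp.cob_src]
    exact fun τ _ => Finset.sum_eq_zero fun j _ => smul_eq_zero_of_left (congrFun (cob_cob _) τ) _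
  sP := by rw [sub_sub_cancel]; exact ω.Sr_van ω.ct_Pc
  nr l hl := ⟨Lp.Fam.nfE (H := ω.H) (lam := ω.lam) (ct := ω.ct) ω.fam ω.nf.nf l,
    ci_iff.1 (hR.cur (I := Wf.cc _ _) ((GU p J).id_sp _) (Gr.mem_sp rfl) (ω.u_lt_l 0).le
      (ω.r_lt_u 0).le) l hl⟩
  det i hi q hq hz hp := h.det le_rfl (by omega) (by omega) hq hz
    (fun j _ => hp (.inl j, 0) (by simp [Ty.kdU])) (hp (.inr false, 0) (by simp [Ty.kdU]))
  die x hx := by
    have hy : ∀ y, τ.kdU p y = none → N0 c + (τ.sg p hc).F y = 52 * c :=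
      fun y => Sg.F_y (σ := τ.sg p hc)
    by_cases hF : (τ.sg p hc).F x < 12 * c
    · exact .inl ⟨by unfold N0; omega, fun y q => by rw [hy y q]; unfold N0; omega⟩
    rcases x with ⟨j | _ | _, δ⟩
    · have e1 : _ = 2 + 2 * τ.dp j + 2 * τ.sc j := Sg.F_cl (σ := τ.sg p hc) (x := (.inl j, δ)) hx rfl
      have e2 := hc j
      have e3 := ω.sc_lt j
      exact .inr ⟨pd_uv_ne (by simp), min n' ((τ.sc j - 2) / 3), min_le_left _ _, by unfold N0; omega,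
        fun f hf => h.die le_rfl (by omega) hf⟩
    · have := Sg.F_w (σ := τ.sg p hc) (x := (.inr false, δ)) hx rfl
      omega
    · exact absurd rfl hx
  hF _ := Nat.le_add_right _ _
  w0 := le_rfl
  ws i _ := by unfold N0; omega
  wm i hi := by omega

/-- **the wall facts** of the wall of a wall chain -/
structure Wfa {c : ℕ} (h : ω.Sig R σ) (hc : ∀ j, τ.dp j ≤ c) (L : ℤ)
    (f : _root_.N255.Sl.Wf (h.wall hc) (N0 c)) : Prop where
  W0 : _root_.N255.Sl.W0w (h.wall hc)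
  hN : f.I ≤ Ge p (ZMod p) (fun x => N0 c + (h.wall hc).F x) (N1 c)
  hK : f.KU ≤ mx ^ 2 ⊓ Ge p (ZMod p) (fun x => N0 c + (h.wall hc).F x) L
  hY : f.I ≤ mx * mx ⊔ Wf.Ny p (ZMod p) fun x => τ.kdU p x = none
  gr : (GU p J).Id f.I
  ci : CI ω.Pc f.I (cur ω.gU)

theorem Sig.wfa [T2Space X] [ChartedSpace (EE 4) X] (h : ω.Sig R σ) (hR : ω.Rad R) {c : ℕ} {L : ℤ}
    (hc : ∀ j, τ.dp j ≤ c) (h1 : 3 ≤ c) (hn : 3 ≤ n) (hL : L ≤ 2 * n) : ∃ f, Wfa h hc L f := by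
  have w := h.wf hR hc h1 (n' := n / 3 - 1) (by omega) (by omega)
  have h2 : 0 < N0 c + 6 * (n / 3 - 1) := by unfold N0; omega
  exact ⟨w.wf (w := h.wall hc) rfl, w.w0', w.wf_N (w := h.wall hc) rfl h2 (by unfold N0 N1; omega)
    fun y hy => (Sg.F_y (σ := τ.sg p hc) hy).ge, w.wf_K (w := h.wall hc) rfl h2 (by unfold N0; omega),
    w.I_le h2, w.wf_id (w := h.wall hc) rfl, w.wf_cur (w := h.wall hc) rfl⟩

/-- **the wall facts hold beyond a radius** -/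
theorem exists_wfa [T2Space X] [ChartedSpace (EE 4) X] (ω : Wd g u R₀ n τ e o) {c : ℕ} {L : ℤ}
    (hc : ∀ j, τ.dp j ≤ c) (h1 : 3 ≤ c) (hn : 3 ≤ n) (hL : L ≤ 2 * n) :
    ∃ R₁, ∀ R, R₁ ≤ R → ∀ σ (h : ω.Sig R σ), ∃ f, Wfa h hc L f :=
  let ⟨R₁, H⟩ := ω.exists_rad; ⟨R₁, fun R hR _ h => h.wfa (H R hR) hc h1 hn hL⟩

end Wd

end Crest.Agent.N255.Ma

end
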